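import Vale.Agent.Lib.P302.helper90.C3N4
import Vale.Agent.Lib.P302.helper2.Pad

/-!
The four-level nested instance of `C3N4` (310 items, `OPT ≥ 105`, `LP ≤ 179287/1728`) padded
with items of size `1`: for every `N ≥ 310` there is an instance whose optimum is exactly `N`
and whose gap `OPT - LP` is at least `2153/1728`.
-/

namespace Vale.Agent.Lib.P302.helper90.C3N4

open Vale.Agent.Lib.P302 Vale.Agent.Lib.P302.helper49

theorem length_flat : (flat ts).length = 310 := by decide +kernel

theorem every_opt (N : ℕ) (hN : 310 ≤ N) :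
    ∃ (n : ℕ) (a : Fin n → ℚ), (∀ i, 0 < a i ∧ a i ≤ 1) ∧
      Vale.Agent.Lib.P302.OPT a = N ∧
      (Vale.Agent.Lib.P302.OPT a : ℝ) - Vale.Agent.Lib.P302.LP a ≥ 2153 / 1728 := by
  have ha : ∀ i, 0 < inst L (flat ts) i ∧ inst L (flat ts) i ≤ 1 := fun i =>
    ⟨inst_pos (by decide) (by decide +kernel) i, inst_le_one (by decide) (by decide +kernel) i⟩
  have hg : (Vale.Agent.Lib.P302.OPT (inst L (flat ts)) : ℝ) -
      Vale.Agent.Lib.P302.LP (inst L (flat ts)) ≥ 2153 / 1728 := by
    have h1 : ((105 : ℕ) : ℝ) ≤ (Vale.Agent.Lib.P302.OPT (inst L (flat ts)) : ℝ) := by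
      exact_mod_cast opt_ge
    have h2 := lp_le
    push_cast at h1
    linarith
  exact Vale.Agent.Lib.P302.helper2.gap_every_opt (inst L (flat ts)) ha hg N
    (by rw [length_flat]; exact hN)

end Vale.Agent.Lib.P302.helper90.C3N4
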