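import Vale.Agent.Lib.P302.helper90.Split
import Vale.Agent.Lib.P302.helper2.Strip

/-!
Stripping an inner block.

The items are hosts (shorter than `V`) and long items (of length at least `j`); three long items
never fit, so every fitting triple contains a host, and a family of as many disjoint fitting
triples as there are hosts uses every host exactly once.  The hosts and long items split into an
outer part `N` and an inner block (inner guests `GB`, inner hosts `HB`).  If the inner block with
two extra items of length `j` does not fill all its hosts, then at least three inner hosts are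
served with the help of an outer item.  Replacing the inner hosts of three such triples by one
length `σ` and all inner guests by one length `β` (fitting triples stay fitting by the side
conditions) turns the triples of the outer hosts and these three triples into disjoint fitting
triples of the outer part with three extra hosts `σ`.
-/

namespace Vale.Agent.Lib.P302.helper90

open Vale.Agent.Lib.P302.helper49

theorem countP_replicate_of_not (p : ℕ → Prop) [DecidablePred p] (n a : ℕ) (h : ¬ p a) :
    (Multiset.replicate n a).countP p = 0 := by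
  rw [Multiset.countP_eq_zero]
  intro x hx
  rw [Multiset.eq_of_mem_replicate hx]
  exact h

/-- Triples with exactly one host each that leave `k` inner hosts unused can be completed by `k`
further triples (host, extra item of length `j`, unused inner guest). -/
theorem tripleMatch_fill {L V j : ℕ} {GB HB : Multiset ℕ}
    (hHBV : ∀ x ∈ HB, x < V) (hGBj : ∀ x ∈ GB, j ≤ x) (hVj : V ≤ j)
    (hcardG : 2 * HB.card ≤ GB.card) (hjGB : j ∉ GB)
    (hfitJ : ∀ h ∈ HB, ∀ g ∈ GB, h + j + g ≤ L) :
    ∀ (k m : ℕ) (P : Multiset (Multiset ℕ)),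
      (∀ b ∈ P, b.card = 3 ∧ b.sum ≤ L ∧ b.countP (fun x => x < V) = 1) →
      P.join ≤ GB + Multiset.replicate m j + HB → P.card + k = HB.card →
      TripleMatch L (GB + Multiset.replicate (m + k) j + HB) HB.card := by
  classical
  intro k
  induction k with
  | zero =>
    intro m P hP hle hc
    exact ⟨P, by omega, fun b hb => ⟨(hP b hb).1, (hP b hb).2.1⟩, by simpa using hle⟩
  | succ k ih =>
    intro m P hP hle hc
    have hGBnotV : ∀ x ∈ GB, ¬ x < V := fun x hx => by
      have := hGBj x hx
      omega
    have hHBnotGB : ∀ x ∈ HB, ¬ x ∈ GB := fun x hx hx' => hGBnotV x hx' (hHBV x hx)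
    obtain ⟨Mt, hMt⟩ : ∃ Mt, Mt = GB + Multiset.replicate m j + HB := ⟨_, rfl⟩
    rw [← hMt] at hle
    have hcntV : Mt.countP (fun x => x < V) = HB.card := by
      rw [hMt, Multiset.countP_add, Multiset.countP_add,
        Multiset.countP_eq_zero.mpr hGBnotV,
        countP_replicate_of_not (fun x => x < V) m j (by omega),
        Multiset.countP_eq_card.mpr hHBV]
      omega
    have hcntG : Mt.countP (fun x => x ∈ GB) = GB.card := by
      rw [hMt, Multiset.countP_add, Multiset.countP_add,
        Multiset.countP_eq_card.mpr (fun x hx => hx),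
        countP_replicate_of_not (fun x => x ∈ GB) m j hjGB,
        Multiset.countP_eq_zero.mpr hHBnotGB]
      omega
    have hPV : P.join.countP (fun x => x < V) = P.card := by
      rw [Vale.Agent.Lib.P302.helper2.countP_join_sum,
        Vale.Agent.Lib.P302.helper2.sum_map_const_of_forall _ P (fun b hb => (hP b hb).2.2),
        mul_one]
    have hPG : P.join.countP (fun x => x ∈ GB) ≤ 2 * P.card := by
      rw [Vale.Agent.Lib.P302.helper2.countP_join_sum]
      have h2 : ∀ x ∈ P.map (fun b => b.countP (fun x => x ∈ GB)), x ≤ 2 := by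
        intro x hx
        obtain ⟨b, hb, rfl⟩ := Multiset.mem_map.mp hx
        obtain ⟨hb3, _, hb1⟩ := hP b hb
        have hsplit := Multiset.card_eq_countP_add_countP (fun x => x < V) b
        have hle2 : b.countP (fun x => x ∈ GB) ≤ b.countP (fun x => ¬ x < V) := by
          rw [Multiset.countP_eq_card_filter, Multiset.countP_eq_card_filter]
          exact Multiset.card_le_card
            (Multiset.monotone_filter_right b (fun x hx => hGBnotV x hx))
        omega
      have h3 := Multiset.sum_le_card_nsmul _ 2 h2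
      rw [Multiset.card_map, smul_eq_mul] at h3
      omega
    obtain ⟨D, hD⟩ : ∃ D, D = Mt - P.join := ⟨_, rfl⟩
    have hDadd : D + P.join = Mt := by
      rw [hD]
      exact tsub_add_cancel_of_le hle
    have hDV : 0 < D.countP (fun x => x < V) := by
      rw [hD, Multiset.countP_sub hle, hcntV, hPV]
      omega
    have hDG : 0 < D.countP (fun x => x ∈ GB) := by
      rw [hD, Multiset.countP_sub hle, hcntG]
      omega
    obtain ⟨h, hhD, hhV⟩ := Multiset.countP_pos.mp hDV
    obtain ⟨g, hgD, hgGB⟩ := Multiset.countP_pos.mp hDG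
    have hgj : j ≤ g := hGBj g hgGB
    have hne : g ≠ h := by omega
    have hDle : D ≤ Mt := by
      rw [← hDadd]
      exact Multiset.le_add_right _ _
    have hhHB : h ∈ HB := by
      have hm := Multiset.mem_of_le hDle hhD
      rw [hMt, Multiset.mem_add, Multiset.mem_add] at hm
      rcases hm with (hm | hm) | hm
      · exact absurd hhV (hGBnotV h hm)
      · have := Multiset.eq_of_mem_replicate hm
        omega
      · exact hm
    obtain ⟨D1, hD1⟩ := Multiset.exists_cons_of_mem hhD
    have hgD1 : g ∈ D1 := by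
      rw [hD1, Multiset.mem_cons] at hgD
      rcases hgD with hgD | hgD
      · exact absurd hgD hne
      · exact hgD
    obtain ⟨D2, hD2⟩ := Multiset.exists_cons_of_mem hgD1
    have hpair : h ::ₘ g ::ₘ 0 ≤ D := by
      rw [hD1, hD2]
      exact Multiset.cons_le_cons h (Multiset.cons_le_cons g (Multiset.zero_le D2))
    have hjoin : (j ::ₘ h ::ₘ g ::ₘ 0) + P.join ≤ GB + Multiset.replicate (m + 1) j + HB := by
      have e1 : GB + Multiset.replicate (m + 1) j + HB = j ::ₘ Mt := by
        rw [hMt, Multiset.replicate_succ, Multiset.add_cons, Multiset.cons_add]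
      rw [e1, Multiset.cons_add]
      apply Multiset.cons_le_cons
      rw [← hDadd]
      exact add_le_add hpair le_rfl
    have hP' : ∀ b ∈ (j ::ₘ h ::ₘ g ::ₘ 0) ::ₘ P,
        b.card = 3 ∧ b.sum ≤ L ∧ b.countP (fun x => x < V) = 1 := by
      intro b hb
      rw [Multiset.mem_cons] at hb
      rcases hb with rfl | hb
      · refine ⟨by simp, ?_, ?_⟩
        · have := hfitJ h hhHB g hgGB
          simp only [Multiset.sum_cons, Multiset.sum_zero]
          omega
        · rw [Multiset.countP_cons_of_neg (p := fun x => x < V) _ (by omega),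
            Multiset.countP_cons_of_pos (p := fun x => x < V) _ hhV,
            Multiset.countP_cons_of_neg (p := fun x => x < V) _ (by omega), Multiset.countP_zero]
      · exact hP b hb
    have hres := ih (m + 1) ((j ::ₘ h ::ₘ g ::ₘ 0) ::ₘ P) hP'
      (by rw [Multiset.join_cons]; exact hjoin) (by rw [Multiset.card_cons]; omega)
    have e : m + 1 + k = m + (k + 1) := by omega
    rw [e] at hres
    exact hres

/-- Stripping the inner block (multiset form). -/
theorem not_tripleMatch_inner {L V j β σ nA : ℕ} {N GB HB : Multiset ℕ}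
    (hNGB : ∀ x ∈ N, x ∉ GB) (hNHB : ∀ x ∈ N, x ∉ HB)
    (hHBV : ∀ x ∈ HB, x < V) (hGBj : ∀ x ∈ GB, j ≤ x) (hN : ∀ x ∈ N, x < V ∨ j ≤ x)
    (hVj : V ≤ j) (h3 : L < 3 * j)
    (hnA : N.countP (fun x => x < V) = nA)
    (hcardG : 2 * HB.card ≤ GB.card) (hjGB : j ∉ GB)
    (hfitJ : ∀ h ∈ HB, ∀ g ∈ GB, h + j + g ≤ L)
    (hInner : ¬ TripleMatch L (GB + Multiset.replicate 2 j + HB) HB.card)
    (ho1 : ∀ a ∈ N, ∀ y ∈ N, ∀ g ∈ GB, a + y + g ≤ L → a + y + β ≤ L)
    (ho2 : ∀ a ∈ N, ∀ g ∈ GB, ∀ g' ∈ GB, L < a + g + g')
    (hi1 : ∀ x ∈ N, ∀ y ∈ N, ∀ h ∈ HB, h + x + y ≤ L → σ + x + y ≤ L)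
    (hi2 : ∀ x ∈ N, ∀ g ∈ GB, ∀ h ∈ HB, h + x + g ≤ L → σ + x + β ≤ L)
    (hLink : ¬ TripleMatch L (N + Multiset.replicate GB.card β + Multiset.replicate 3 σ)
      (nA + 3)) :
    ¬ TripleMatch L (N + GB + HB) (nA + HB.card) := by
  classical
  rintro ⟨B, hBc, hBt, hBj⟩
  obtain ⟨M, hM⟩ : ∃ M, M = N + GB + HB := ⟨_, rfl⟩
  rw [← hM] at hBj
  have hGBnotV : ∀ x ∈ GB, ¬ x < V := fun x hx => by
    have := hGBj x hx
    omega
  have hGBnotHB : ∀ x ∈ GB, x ∉ HB := fun x hx hx' => hGBnotV x hx (hHBV x hx')
  have hmemM : ∀ b ∈ B, ∀ x ∈ b, x ∈ M := fun b hb x hx =>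
    Multiset.mem_of_le hBj (Multiset.mem_join.mpr ⟨b, hb, hx⟩)
  have hcls : ∀ x ∈ M, x ∈ N ∨ x ∈ GB ∨ x ∈ HB := by
    intro x hx
    rw [hM, Multiset.mem_add, Multiset.mem_add] at hx
    rcases hx with (hx | hx) | hx
    · exact Or.inl hx
    · exact Or.inr (Or.inl hx)
    · exact Or.inr (Or.inr hx)
  -- every triple contains exactly one host
  have hone : ∀ b ∈ B, 1 ≤ b.countP (fun x => x < V) := by
    intro b hb
    by_contra hcon
    have h0 : b.countP (fun x => x < V) = 0 := by omega
    rw [Multiset.countP_eq_zero] at h0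
    obtain ⟨hb3, hbs⟩ := hBt b hb
    have hge : ∀ x ∈ b, j ≤ x := by
      intro x hx
      have hx0 := h0 x hx
      rcases hcls x (hmemM b hb x hx) with h | h | h
      · rcases hN x h with h' | h'
        · exact absurd h' hx0
        · exact h'
      · exact hGBj x h
      · exact absurd (hHBV x h) hx0
    have hsum := Multiset.card_nsmul_le_sum hge
    rw [hb3, smul_eq_mul] at hsum
    omega
  have hMV : M.countP (fun x => x < V) = nA + HB.card := by
    rw [hM, Multiset.countP_add, Multiset.countP_add, hnA,
      Multiset.countP_eq_zero.mpr hGBnotV, Multiset.countP_eq_card.mpr hHBV]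
    omega
  have hjoinle : B.join.countP (fun x => x < V) ≤ nA + HB.card := by
    rw [← hMV]
    exact Multiset.countP_le_of_le _ hBj
  have hcardle : B.card ≤ (B.map (fun b => b.countP (fun x => x < V))).sum := by
    have hh := Multiset.card_nsmul_le_sum (s := B.map (fun b => b.countP (fun x => x < V)))
      (a := 1) (by
        intro x hx
        obtain ⟨b, hb, rfl⟩ := Multiset.mem_map.mp hx
        exact hone b hb)
    rw [Multiset.card_map, smul_eq_mul, mul_one] at hh
    exact hh
  rw [Vale.Agent.Lib.P302.helper2.countP_join_sum] at hjoinle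
  have hBcard : B.card = nA + HB.card := by omega
  have hexact : ∀ b ∈ B, b.countP (fun x => x < V) = 1 := by
    intro b hb
    by_contra hne
    have hlt : 1 < b.countP (fun x => x < V) := lt_of_le_of_ne (hone b hb) (Ne.symm hne)
    have hs := Multiset.sum_lt_sum (s := B) (f := fun _ => 1)
      (g := fun b => b.countP (fun x => x < V)) (fun b hb => hone b hb) ⟨b, hb, hlt⟩
    rw [Multiset.map_const', Multiset.sum_replicate, smul_eq_mul, mul_one] at hs
    omega
  -- the triples of the inner hosts and the triples of the outer hosts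
  obtain ⟨Bin, hBin⟩ : ∃ Bin, Bin = B.filter (fun b => ∃ x ∈ b, x ∈ HB) := ⟨_, rfl⟩
  obtain ⟨Bout, hBout⟩ : ∃ Bout, Bout = B.filter (fun b => ¬ ∃ x ∈ b, x ∈ HB) := ⟨_, rfl⟩
  have hsplit : Bin + Bout = B := by
    rw [hBin, hBout]
    exact Multiset.filter_add_not _ B
  have hBinmem : ∀ b ∈ Bin, b ∈ B ∧ ∃ x ∈ b, x ∈ HB := by
    intro b hb
    rw [hBin] at hb
    exact Multiset.mem_filter.mp hb
  have hBoutmem : ∀ b ∈ Bout, b ∈ B ∧ ∀ x ∈ b, x ∉ HB := by
    intro b hb
    rw [hBout] at hb
    obtain ⟨h1, h2⟩ := Multiset.mem_filter.mp hb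
    exact ⟨h1, fun x hx hxH => h2 ⟨x, hx, hxH⟩⟩
  have hBinjoin : Bin.join ≤ M :=
    le_trans (by rw [← hsplit, Multiset.join_add]; exact Multiset.le_add_right _ _) hBj
  have hBoutjoin : Bout.join ≤ M :=
    le_trans (by rw [← hsplit, Multiset.join_add]; exact Multiset.le_add_left _ _) hBj
  have hMHB : M.countP (fun x => x ∈ HB) = HB.card := by
    rw [hM, Multiset.countP_add, Multiset.countP_add, Multiset.countP_eq_zero.mpr hNHB,
      Multiset.countP_eq_zero.mpr hGBnotHB, Multiset.countP_eq_card.mpr (fun x hx => hx)]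
    omega
  have hBinle : Bin.card ≤ HB.card := by
    have h2 := Multiset.countP_le_of_le (fun x => x ∈ HB) hBinjoin
    rw [Vale.Agent.Lib.P302.helper2.countP_join_sum, hMHB] at h2
    have h3 := Multiset.card_nsmul_le_sum (s := Bin.map (fun b => b.countP (fun x => x ∈ HB)))
      (a := 1) (by
        intro x hx
        obtain ⟨b, hb, rfl⟩ := Multiset.mem_map.mp hx
        obtain ⟨_, y, hy, hyH⟩ := hBinmem b hb
        exact Multiset.countP_pos.mpr ⟨y, hy, hyH⟩)
    rw [Multiset.card_map, smul_eq_mul, mul_one] at h3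
    omega
  have hMq : M.countP (fun x => x < V ∧ x ∉ HB) = nA := by
    have e1 : N.countP (fun x => x < V ∧ x ∉ HB) = N.countP (fun x => x < V) := by
      apply Multiset.countP_congr rfl
      intro x hx
      simp only [eq_iff_iff]
      exact ⟨fun h => h.1, fun h => ⟨h, hNHB x hx⟩⟩
    rw [hM, Multiset.countP_add, Multiset.countP_add, e1, hnA,
      Multiset.countP_eq_zero.mpr (fun x hx h => hGBnotV x hx h.1),
      Multiset.countP_eq_zero.mpr (fun x hx h => h.2 hx)]
    omega
  have hBoutq : ∀ b ∈ Bout, b.countP (fun x => x < V ∧ x ∉ HB) = 1 := by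
    intro b hb
    obtain ⟨hbB, hno⟩ := hBoutmem b hb
    rw [← hexact b hbB]
    apply Multiset.countP_congr rfl
    intro x hx
    simp only [eq_iff_iff]
    exact ⟨fun h => h.1, fun h => ⟨h, hno x hx⟩⟩
  have hBoutle : Bout.card ≤ nA := by
    have h2 := Multiset.countP_le_of_le (fun x => x < V ∧ x ∉ HB) hBoutjoin
    rw [Vale.Agent.Lib.P302.helper2.countP_join_sum,
      Vale.Agent.Lib.P302.helper2.sum_map_const_of_forall _ Bout hBoutq, mul_one, hMq] at h2
    exact h2
  have hcards : Bin.card + Bout.card = nA + HB.card := by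
    rw [← hBcard, ← hsplit, Multiset.card_add]
  have hBinc : Bin.card = HB.card := by omega
  have hBoutc : Bout.card = nA := by omega
  -- pure inner triples and mixed triples
  obtain ⟨P, hPdef⟩ : ∃ P, P = Bin.filter (fun b => ∀ x ∈ b, x ∈ GB ∨ x ∈ HB) := ⟨_, rfl⟩
  obtain ⟨Q, hQdef⟩ : ∃ Q, Q = Bin.filter (fun b => ¬ ∀ x ∈ b, x ∈ GB ∨ x ∈ HB) := ⟨_, rfl⟩
  have hPQ : P + Q = Bin := by
    rw [hPdef, hQdef]
    exact Multiset.filter_add_not _ Bin
  have hPmem : ∀ b ∈ P, b ∈ B ∧ ∀ x ∈ b, x ∈ GB ∨ x ∈ HB := by
    intro b hb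
    rw [hPdef] at hb
    obtain ⟨h1, h2⟩ := Multiset.mem_filter.mp hb
    exact ⟨(hBinmem b h1).1, h2⟩
  have hQmem : ∀ b ∈ Q, b ∈ Bin ∧ ¬ ∀ x ∈ b, x ∈ GB ∨ x ∈ HB := by
    intro b hb
    rw [hQdef] at hb
    exact Multiset.mem_filter.mp hb
  have hQ3 : 3 ≤ Q.card := by
    by_contra hcon
    apply hInner
    have hPjoin : P.join ≤ GB + Multiset.replicate 0 j + HB := by
      have h1 : P.join ≤ M :=
        le_trans (by rw [← hPQ, Multiset.join_add]; exact Multiset.le_add_right _ _) hBinjoin
      have h2 := Multiset.filter_le_filter (fun x => x ∈ GB ∨ x ∈ HB) h1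
      have h3 : P.join.filter (fun x => x ∈ GB ∨ x ∈ HB) = P.join :=
        Multiset.filter_eq_self.mpr (fun x hx => by
          obtain ⟨b, hb, hxb⟩ := Multiset.mem_join.mp hx
          exact (hPmem b hb).2 x hxb)
      rw [h3, hM, Multiset.filter_add, Multiset.filter_add,
        Multiset.filter_eq_nil.mpr (fun x hx h => h.elim (hNGB x hx) (hNHB x hx)),
        Multiset.filter_eq_self.mpr (fun x hx => Or.inl hx),
        Multiset.filter_eq_self.mpr (fun x hx => Or.inr hx)] at h2
      simpa using h2
    have hcardP : P.card + Q.card = HB.card := by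
      rw [← hBinc, ← hPQ, Multiset.card_add]
    have hfill := tripleMatch_fill hHBV hGBj hVj hcardG hjGB hfitJ Q.card 0 P
      (fun b hb => ⟨(hBt b (hPmem b hb).1).1, (hBt b (hPmem b hb).1).2,
        hexact b (hPmem b hb).1⟩) hPjoin hcardP
    rw [Nat.zero_add] at hfill
    exact tripleMatch_mono hfill
      (add_le_add (add_le_add le_rfl ((Multiset.replicate_le_replicate j).mpr (by omega)))
        le_rfl) le_rfl
  -- three mixed triples
  obtain ⟨q1, hq1⟩ := Multiset.card_pos_iff_exists_mem.mp (by omega : 0 < Q.card)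
  obtain ⟨Q1, hQ1⟩ := Multiset.exists_cons_of_mem hq1
  have hc1 : 2 ≤ Q1.card := by
    rw [hQ1, Multiset.card_cons] at hQ3
    omega
  obtain ⟨q2, hq2⟩ := Multiset.card_pos_iff_exists_mem.mp (by omega : 0 < Q1.card)
  obtain ⟨Q2, hQ2⟩ := Multiset.exists_cons_of_mem hq2
  have hc2 : 1 ≤ Q2.card := by
    rw [hQ2, Multiset.card_cons] at hc1
    omega
  obtain ⟨q3, hq3⟩ := Multiset.card_pos_iff_exists_mem.mp (by omega : 0 < Q2.card)
  obtain ⟨Q3, hQ3'⟩ := Multiset.exists_cons_of_mem hq3
  obtain ⟨Q', hQ'⟩ : ∃ Q' : Multiset (Multiset ℕ), Q' = q1 ::ₘ q2 ::ₘ q3 ::ₘ 0 := ⟨_, rfl⟩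
  have hQ'le : Q' ≤ Q := by
    rw [hQ', hQ1, hQ2, hQ3']
    exact Multiset.cons_le_cons _ (Multiset.cons_le_cons _ (Multiset.cons_le_cons _
      (Multiset.zero_le _)))
  have hQ'card : Q'.card = 3 := by
    rw [hQ']
    simp
  have hQ'mem : ∀ b ∈ Q', b ∈ Bin ∧ ¬ ∀ x ∈ b, x ∈ GB ∨ x ∈ HB := fun b hb =>
    hQmem b (Multiset.mem_of_le hQ'le hb)
  obtain ⟨Bsel, hBsel⟩ : ∃ Bsel, Bsel = Bout + Q' := ⟨_, rfl⟩
  have hBselle : Bsel.join ≤ M := by
    have h1 : Bsel ≤ B := by
      rw [hBsel, ← hsplit, ← hPQ, add_comm]
      exact add_le_add (le_trans hQ'le (Multiset.le_add_left _ _)) le_rfl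
    obtain ⟨C, hC⟩ := Multiset.le_iff_exists_add.mp h1
    refine le_trans ?_ hBj
    rw [hC, Multiset.join_add]
    exact Multiset.le_add_right _ _
  -- the replacement
  obtain ⟨ψ, hψ⟩ : ∃ ψ : ℕ → ℕ, ψ = fun x => if x ∈ HB then σ else if x ∈ GB then β else x :=
    ⟨_, rfl⟩
  have hψHB : ∀ x, x ∈ HB → ψ x = σ := fun x hx => by simp [hψ, hx]
  have hψGB : ∀ x, x ∉ HB → x ∈ GB → ψ x = β := fun x hx hx' => by simp [hψ, hx, hx']
  have hψN : ∀ x, x ∉ HB → x ∉ GB → ψ x = x := fun x hx hx' => by simp [hψ, hx, hx']
  apply hLink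
  refine ⟨Bsel.map (Multiset.map ψ), ?_, ?_, ?_⟩
  · rw [Multiset.card_map, hBsel, Multiset.card_add, hQ'card, hBoutc]
  · intro t' ht'
    obtain ⟨b, hb, rfl⟩ := Multiset.mem_map.mp ht'
    rw [hBsel, Multiset.mem_add] at hb
    refine ⟨?_, ?_⟩
    · rw [Multiset.card_map]
      rcases hb with hb | hb
      · exact (hBt b (hBoutmem b hb).1).1
      · exact (hBt b (hBinmem b (hQ'mem b hb).1).1).1
    · rcases hb with hb | hb
      · -- a triple of an outer host
        obtain ⟨hbB, hno⟩ := hBoutmem b hb
        obtain ⟨hb3, hbs⟩ := hBt b hbB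
        have hex := hexact b hbB
        obtain ⟨a, hab, haV⟩ := Multiset.countP_pos.mp (by omega : 0 < b.countP (fun x => x < V))
        obtain ⟨c, rfl⟩ := Multiset.exists_cons_of_mem hab
        have hc2 : c.card = 2 := by
          rw [Multiset.card_cons] at hb3
          omega
        rw [Multiset.countP_cons_of_pos (p := fun x => x < V) c haV] at hex
        have hc0 : c.countP (fun x => x < V) = 0 := by omega
        rw [Multiset.countP_eq_zero] at hc0
        obtain ⟨x, y, rfl⟩ := Multiset.card_eq_two.mp hc2
        have hxV := hc0 x (by simp)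
        have hyV := hc0 y (by simp)
        have haM := hmemM _ hbB a (by simp)
        have hxM := hmemM _ hbB x (by simp)
        have hyM := hmemM _ hbB y (by simp)
        have haH := hno a (by simp)
        have hxH := hno x (by simp)
        have hyH := hno y (by simp)
        have haN : a ∈ N := by
          rcases hcls a haM with h | h | h
          · exact h
          · exact absurd haV (hGBnotV a h)
          · exact absurd h haH
        have hsum : a + (x + y) ≤ L := by
          have e : (a ::ₘ ({x, y} : Multiset ℕ)).sum = a + (x + y) := by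
            simp [Multiset.insert_eq_cons]
          rw [e] at hbs
          exact hbs
        have hmsum : (Multiset.map ψ (a ::ₘ ({x, y} : Multiset ℕ))).sum = ψ a + (ψ x + ψ y) := by
          simp [Multiset.insert_eq_cons]
        rw [hmsum, hψN a haH (hNGB a haN)]
        rcases hcls x hxM with hx | hx | hx
        · rcases hcls y hyM with hy | hy | hy
          · rw [hψN x hxH (hNGB x hx), hψN y hyH (hNGB y hy)]
            exact hsum
          · rw [hψN x hxH (hNGB x hx), hψGB y hyH hy]
            have := ho1 a haN x hx y hy (by omega)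
            omega
          · exact absurd hy hyH
        · rcases hcls y hyM with hy | hy | hy
          · rw [hψGB x hxH hx, hψN y hyH (hNGB y hy)]
            have := ho1 a haN y hy x hx (by omega)
            omega
          · have := ho2 a haN x hx y hy
            omega
          · exact absurd hy hyH
        · exact absurd hx hxH
      · -- a mixed triple of an inner host
        obtain ⟨hbBin, hnp⟩ := hQ'mem b hb
        obtain ⟨hbB, h, hhb, hhH⟩ := hBinmem b hbBin
        obtain ⟨hb3, hbs⟩ := hBt b hbB
        have hex := hexact b hbB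
        have hhV : h < V := hHBV h hhH
        obtain ⟨c, rfl⟩ := Multiset.exists_cons_of_mem hhb
        have hc2 : c.card = 2 := by
          rw [Multiset.card_cons] at hb3
          omega
        rw [Multiset.countP_cons_of_pos (p := fun x => x < V) c hhV] at hex
        have hc0 : c.countP (fun x => x < V) = 0 := by omega
        rw [Multiset.countP_eq_zero] at hc0
        obtain ⟨x, y, rfl⟩ := Multiset.card_eq_two.mp hc2
        have hxV := hc0 x (by simp)
        have hyV := hc0 y (by simp)
        have hxM := hmemM _ hbB x (by simp)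
        have hyM := hmemM _ hbB y (by simp)
        have hxH : x ∉ HB := fun hx => hxV (hHBV x hx)
        have hyH : y ∉ HB := fun hy => hyV (hHBV y hy)
        have hsum : h + (x + y) ≤ L := by
          have e : (h ::ₘ ({x, y} : Multiset ℕ)).sum = h + (x + y) := by
            simp [Multiset.insert_eq_cons]
          rw [e] at hbs
          exact hbs
        have hmsum : (Multiset.map ψ (h ::ₘ ({x, y} : Multiset ℕ))).sum = ψ h + (ψ x + ψ y) := by
          simp [Multiset.insert_eq_cons]
        rw [hmsum, hψHB h hhH]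
        rcases hcls x hxM with hx | hx | hx
        · rcases hcls y hyM with hy | hy | hy
          · rw [hψN x hxH (hNGB x hx), hψN y hyH (hNGB y hy)]
            have := hi1 x hx y hy h hhH (by omega)
            omega
          · rw [hψN x hxH (hNGB x hx), hψGB y hyH hy]
            have := hi2 x hx y hy h hhH (by omega)
            omega
          · exact absurd hy hyH
        · rcases hcls y hyM with hy | hy | hy
          · rw [hψGB x hxH hx, hψN y hyH (hNGB y hy)]
            have := hi2 y hy x hx h hhH (by omega)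
            omega
          · exfalso
            apply hnp
            intro w hw
            simp only [Multiset.insert_eq_cons, Multiset.mem_cons, Multiset.mem_singleton] at hw
            rcases hw with rfl | rfl | rfl
            · exact Or.inr hhH
            · exact Or.inl hx
            · exact Or.inl hy
          · exact absurd hy hyH
        · exact absurd hx hxH
  · rw [← Multiset.map_join]
    obtain ⟨X, hX⟩ : ∃ X, X = Bsel.join := ⟨_, rfl⟩
    rw [← hX] at hBselle ⊢
    have hX1 : X.countP (fun x => x ∈ HB) ≤ 3 := by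
      rw [hX, Vale.Agent.Lib.P302.helper2.countP_join_sum, hBsel, Multiset.map_add,
        Multiset.sum_add]
      have e1 : (Bout.map (fun b => b.countP (fun x => x ∈ HB))).sum = 0 := by
        rw [Vale.Agent.Lib.P302.helper2.sum_map_const_of_forall (c := 0) _ Bout
          (fun b hb => Multiset.countP_eq_zero.mpr (hBoutmem b hb).2)]
        omega
      have e2 : (Q'.map (fun b => b.countP (fun x => x ∈ HB))).sum ≤ 3 := by
        have h2 : ∀ x ∈ Q'.map (fun b => b.countP (fun x => x ∈ HB)), x ≤ 1 := by
          intro x hx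
          obtain ⟨b, hb, rfl⟩ := Multiset.mem_map.mp hx
          have hbB := (hBinmem b (hQ'mem b hb).1).1
          rw [← hexact b hbB, Multiset.countP_eq_card_filter, Multiset.countP_eq_card_filter]
          exact Multiset.card_le_card
            (Multiset.monotone_filter_right b (fun x hx => hHBV x hx))
        have h3 := Multiset.sum_le_card_nsmul _ 1 h2
        rw [Multiset.card_map, smul_eq_mul, hQ'card] at h3
        omega
      omega
    have hmapX : X.map ψ = Multiset.replicate (X.filter (fun x => x ∈ HB)).card σ +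
        (Multiset.replicate ((X.filter (fun x => ¬ x ∈ HB)).filter (fun x => x ∈ GB)).card β +
          (X.filter (fun x => ¬ x ∈ HB)).filter (fun x => ¬ x ∈ GB)) := by
      conv_lhs => rw [← Multiset.filter_add_not (fun x => x ∈ HB) X]
      rw [Multiset.map_add]
      congr 1
      · rw [Multiset.map_congr rfl (fun x hx => hψHB x (Multiset.mem_filter.mp hx).2)]
        exact Multiset.map_const' _ _
      · conv_lhs =>
          rw [← Multiset.filter_add_not (fun x => x ∈ GB) (X.filter (fun x => ¬ x ∈ HB))]
        rw [Multiset.map_add]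
        congr 1
        · rw [Multiset.map_congr rfl (fun x hx =>
            hψGB x (Multiset.mem_filter.mp (Multiset.mem_filter.mp hx).1).2
              (Multiset.mem_filter.mp hx).2)]
          exact Multiset.map_const' _ _
        · rw [Multiset.map_congr rfl (fun x hx =>
            hψN x (Multiset.mem_filter.mp (Multiset.mem_filter.mp hx).1).2
              (Multiset.mem_filter.mp hx).2)]
          exact Multiset.map_id' _
    have hMnH : M.filter (fun x => ¬ x ∈ HB) = N + GB := by
      rw [hM, Multiset.filter_add, Multiset.filter_add,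
        Multiset.filter_eq_self.mpr (fun x hx => hNHB x hx),
        Multiset.filter_eq_self.mpr (fun x hx => hGBnotHB x hx),
        (Multiset.filter_eq_nil (s := HB)).mpr (fun x hx h => h hx), add_zero]
    have hXnH : X.filter (fun x => ¬ x ∈ HB) ≤ N + GB := by
      rw [← hMnH]
      exact Multiset.filter_le_filter _ hBselle
    have hc1 : (X.filter (fun x => x ∈ HB)).card ≤ 3 := by
      rw [← Multiset.countP_eq_card_filter]
      exact hX1
    have hc2 : ((X.filter (fun x => ¬ x ∈ HB)).filter (fun x => x ∈ GB)).card ≤ GB.card := by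
      have h1 := Multiset.filter_le_filter (fun x => x ∈ GB) hXnH
      rw [Multiset.filter_add, Multiset.filter_eq_nil.mpr (fun x hx h => hNGB x hx h),
        (Multiset.filter_eq_self (s := GB)).mpr (fun x hx => hx), zero_add] at h1
      exact Multiset.card_le_card h1
    have hR : (X.filter (fun x => ¬ x ∈ HB)).filter (fun x => ¬ x ∈ GB) ≤ N := by
      have h1 := Multiset.filter_le_filter (fun x => ¬ x ∈ GB) hXnH
      rw [Multiset.filter_add, Multiset.filter_eq_self.mpr (fun x hx => hNGB x hx),
        (Multiset.filter_eq_nil (s := GB)).mpr (fun x hx h => h hx), add_zero] at h1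
      exact h1
    rw [hmapX]
    have e : N + Multiset.replicate GB.card β + Multiset.replicate 3 σ =
        Multiset.replicate 3 σ + (Multiset.replicate GB.card β + N) := by
      abel
    rw [e]
    exact add_le_add ((Multiset.replicate_le_replicate σ).mpr hc1)
      (add_le_add ((Multiset.replicate_le_replicate β).mpr hc2) hR)

end Vale.Agent.Lib.P302.helper90
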