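import Vale.Agent.Lib.P302.helper90.Inner

/-!
Stripping an inner block, for instances given by lists of types.
-/

namespace Vale.Agent.Lib.P302.helper90

open Vale.Agent.Lib.P302.helper49

/-- Stripping the inner block (list form).  The top block consists of `nY` top guests `β`, the
inner guests `tsGB`, the small outer guests `tsS`, `k` extra items `j`, the outer hosts `tsHA`
and the inner hosts `tsHB`. -/
theorem not_tripleMatch_inner_ts {L V j β σ nY k nA nHB nGB : ℕ}
    {tsGB tsS tsHA tsHB : List (ℕ × ℕ)}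
    (hnA : total tsHA = nA) (hnHB : total tsHB = nHB) (hnGB : total tsGB = nGB)
    (hcard : 2 * nHB ≤ nGB)
    (hVj : V ≤ j) (h3 : L < 3 * j) (hβ : j ≤ β)
    (hS : ∀ x ∈ tsS.map Prod.fst, j ≤ x)
    (hHA : ∀ x ∈ tsHA.map Prod.fst, x < V)
    (hHB : ∀ x ∈ tsHB.map Prod.fst, x < V)
    (hGB : ∀ x ∈ tsGB.map Prod.fst, j < x)
    (hdG : ∀ x ∈ ((β, nY) :: (tsS ++ (j, k) :: tsHA)).map Prod.fst, x ∉ tsGB.map Prod.fst)
    (hdH : ∀ x ∈ ((β, nY) :: (tsS ++ (j, k) :: tsHA)).map Prod.fst, x ∉ tsHB.map Prod.fst)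
    (hfitJ : ∀ h ∈ tsHB.map Prod.fst, ∀ g ∈ tsGB.map Prod.fst, h + j + g ≤ L)
    (hInner : ¬ TripleMatch L (items (tsGB ++ (j, 2) :: tsHB)) nHB)
    (ho1 : ∀ a ∈ ((β, nY) :: (tsS ++ (j, k) :: tsHA)).map Prod.fst,
      ∀ y ∈ ((β, nY) :: (tsS ++ (j, k) :: tsHA)).map Prod.fst,
      ∀ g ∈ tsGB.map Prod.fst, a + y + g ≤ L → a + y + β ≤ L)
    (ho2 : ∀ a ∈ ((β, nY) :: (tsS ++ (j, k) :: tsHA)).map Prod.fst,
      ∀ g ∈ tsGB.map Prod.fst, ∀ g' ∈ tsGB.map Prod.fst, L < a + g + g')
    (hi1 : ∀ x ∈ ((β, nY) :: (tsS ++ (j, k) :: tsHA)).map Prod.fst,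
      ∀ y ∈ ((β, nY) :: (tsS ++ (j, k) :: tsHA)).map Prod.fst,
      ∀ h ∈ tsHB.map Prod.fst, h + x + y ≤ L → σ + x + y ≤ L)
    (hi2 : ∀ x ∈ ((β, nY) :: (tsS ++ (j, k) :: tsHA)).map Prod.fst,
      ∀ g ∈ tsGB.map Prod.fst, ∀ h ∈ tsHB.map Prod.fst, h + x + g ≤ L → σ + x + β ≤ L)
    (hLink : ¬ TripleMatch L
      (items ((β, nY + nGB) :: (tsS ++ (j, k) :: (tsHA ++ [(σ, 3)])))) (nA + 3)) :
    ¬ TripleMatch L (items (((β, nY) :: (tsGB ++ tsS)) ++ (j, k) :: (tsHA ++ tsHB)))
      (nA + nHB) := by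
  have hcGB : (items tsGB).card = nGB := by rw [← total_eq_card, hnGB]
  have hcHB : (items tsHB).card = nHB := by rw [← total_eq_card, hnHB]
  have hcHA : (items tsHA).card = nA := by rw [← total_eq_card, hnA]
  have eN : items ((β, nY) :: (tsS ++ (j, k) :: tsHA)) =
      Multiset.replicate nY β + (items tsS + (Multiset.replicate k j + items tsHA)) := by
    rw [items_cons, items_append, items_cons]
  have eGoal : items (((β, nY) :: (tsGB ++ tsS)) ++ (j, k) :: (tsHA ++ tsHB)) =
      items ((β, nY) :: (tsS ++ (j, k) :: tsHA)) + items tsGB + items tsHB := by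
    rw [eN, items_append, items_cons, items_append, items_cons, items_append]
    simp only
    abel
  have eInner : items (tsGB ++ (j, 2) :: tsHB) =
      items tsGB + Multiset.replicate 2 j + items tsHB := by
    rw [items_append, items_cons]
    simp only [add_assoc]
  have eLink : items ((β, nY + nGB) :: (tsS ++ (j, k) :: (tsHA ++ [(σ, 3)]))) =
      items ((β, nY) :: (tsS ++ (j, k) :: tsHA)) + Multiset.replicate (items tsGB).card β +
        Multiset.replicate 3 σ := by
    rw [eN, hcGB, items_cons, items_append, items_cons, items_append, items_cons, items_nil]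
    simp only [Multiset.replicate_add, add_zero]
    abel
  have hmemN : ∀ x ∈ items ((β, nY) :: (tsS ++ (j, k) :: tsHA)),
      x ∈ ((β, nY) :: (tsS ++ (j, k) :: tsHA)).map Prod.fst := fun x hx => mem_items hx
  rw [eGoal, ← hcHB]
  rw [eInner, ← hcHB] at hInner
  rw [eLink] at hLink
  have hSV : ∀ x ∈ items tsS, ¬ x < V := fun x hx => by
    have := hS x (mem_items hx)
    omega
  have hcnt : (items ((β, nY) :: (tsS ++ (j, k) :: tsHA))).countP (fun x => x < V) = nA := by
    rw [eN, Multiset.countP_add, Multiset.countP_add, Multiset.countP_add,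
      countP_replicate_of_not (fun x => x < V) nY β (by omega),
      Multiset.countP_eq_zero.mpr hSV,
      countP_replicate_of_not (fun x => x < V) k j (by omega),
      Multiset.countP_eq_card.mpr (fun x hx => hHA x (mem_items hx)), hcHA]
    omega
  have hNcls : ∀ x ∈ items ((β, nY) :: (tsS ++ (j, k) :: tsHA)), x < V ∨ j ≤ x := by
    intro x hx
    rw [eN] at hx
    simp only [Multiset.mem_add, Multiset.mem_replicate] at hx
    rcases hx with hx | hx | hx | hx
    · right
      omega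
    · right
      exact hS x (mem_items hx)
    · right
      omega
    · left
      exact hHA x (mem_items hx)
  refine not_tripleMatch_inner (V := V) (j := j) (β := β) (σ := σ) ?_ ?_ ?_ ?_ hNcls hVj h3 hcnt
    ?_ ?_ ?_ hInner ?_ ?_ ?_ ?_ hLink
  · intro x hx hxG
    exact hdG x (hmemN x hx) (mem_items hxG)
  · intro x hx hxH
    exact hdH x (hmemN x hx) (mem_items hxH)
  · intro x hx
    exact hHB x (mem_items hx)
  · intro x hx
    exact le_of_lt (hGB x (mem_items hx))
  · rw [hcGB, hcHB]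
    exact hcard
  · intro hj
    exact absurd (hGB j (mem_items hj)) (lt_irrefl j)
  · intro h hh g hg
    exact hfitJ h (mem_items hh) g (mem_items hg)
  · intro a ha y hy g hg
    exact ho1 a (hmemN a ha) y (hmemN y hy) g (mem_items hg)
  · intro a ha g hg g' hg'
    exact ho2 a (hmemN a ha) g (mem_items hg) g' (mem_items hg')
  · intro x hx y hy h hh
    exact hi1 x (hmemN x hx) y (hmemN y hy) h (mem_items hh)
  · intro x hx g hg h hh
    exact hi2 x (hmemN x hx) g (mem_items hg) h (mem_items hh)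

end Vale.Agent.Lib.P302.helper90
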