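import Vale.Agent.Lib.P302.helper49.Perfect

/-!
A level-splitting theorem for disjoint fitting triples.

If the items split as `A + Bw` (a top level `A` and a lower world `Bw` with disjoint supports),
the lower world contains at most `b` disjoint fitting triples, and in every fitting triple that
contains an item of `A` the items of `Bw` may be replaced by a joker of length `j`, then `T`
disjoint fitting triples in `A + Bw` yield many disjoint fitting triples in `A` plus a few jokers.
-/

namespace Vale.Agent.Lib.P302.helper90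

open Vale.Agent.Lib.P302.helper49

theorem tripleMatch_mono {L : ℕ} {M M' : Multiset ℕ} {T T' : ℕ} (h : TripleMatch L M T)
    (hM : M ≤ M') (hT : T' ≤ T) : TripleMatch L M' T' := by
  obtain ⟨B, h1, h2, h3⟩ := h
  exact ⟨B, le_trans hT h1, h2, le_trans h3 hM⟩

theorem mem_join_of_mem {B : Multiset (Multiset ℕ)} {t : Multiset ℕ} {x : ℕ} (ht : t ∈ B)
    (hx : x ∈ t) : x ∈ B.join :=
  Multiset.mem_join.mpr ⟨t, ht, hx⟩

/-- The level-splitting theorem (multiset form). -/
theorem not_tripleMatch_split {L j zmin : ℕ} {A Bw : Multiset ℕ} {T b : ℕ}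
    (hdisj : ∀ x ∈ A, x ∉ Bw)
    (hz : ∀ z ∈ Bw, zmin ≤ z)
    (h1 : ∀ a1 ∈ A, ∀ a2 ∈ A, a1 + a2 + zmin ≤ L → a1 + a2 + j ≤ L)
    (h2 : ∀ a ∈ A, a + 2 * zmin ≤ L → a + 2 * j ≤ L)
    (hbT : b ≤ T)
    (hB : ¬ TripleMatch L Bw (b + 1))
    (hA1 : ¬ TripleMatch L (A + Multiset.replicate (Multiset.card Bw) j) (T - b + 1))
    (hA2 : ¬ TripleMatch L (A + Multiset.replicate (Multiset.card Bw - 3 * b) j) (T - b)) :
    ¬ TripleMatch L (A + Bw) T := by
  rintro ⟨M, hT, htri, hjoin⟩
  classical
  -- the triples inside the lower world, and the others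
  set p : Multiset ℕ → Prop := fun t => ∀ x ∈ t, x ∈ Bw with hp
  set MB := M.filter p with hMB
  set MA := M.filter (fun t => ¬ p t) with hMA
  have hsplit : MB + MA = M := Multiset.filter_add_not p M
  have hjsplit : M.join = MB.join + MA.join := by
    rw [← hsplit, Multiset.join_add]
  have hcard : MB.card + MA.card = M.card := by
    rw [← hsplit, Multiset.card_add]
  have hMBtri : ∀ t ∈ MB, t.card = 3 ∧ t.sum ≤ L := fun t ht =>
    htri t (Multiset.mem_of_mem_filter ht)
  have hMAtri : ∀ t ∈ MA, t.card = 3 ∧ t.sum ≤ L := fun t ht =>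
    htri t (Multiset.mem_of_mem_filter ht)
  have hMBmem : ∀ x ∈ MB.join, x ∈ Bw := by
    intro x hx
    obtain ⟨t, ht, hxt⟩ := Multiset.mem_join.mp hx
    exact (Multiset.mem_filter.mp ht).2 x hxt
  have hmemAB : ∀ x ∈ M.join, x ∈ A ∨ x ∈ Bw := by
    intro x hx
    exact Multiset.mem_add.mp (Multiset.mem_of_le hjoin hx)
  -- Claim 1: the triples of `MB` live in `Bw`
  have hMBle : MB.join ≤ Bw := by
    rw [Multiset.le_iff_count]
    intro x
    by_cases hx : x ∈ Bw
    · have hxA : Multiset.count x A = 0 := by
        rw [Multiset.count_eq_zero]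
        intro hA
        exact hdisj x hA hx
      have h3 : Multiset.count x MB.join ≤ Multiset.count x M.join := by
        rw [hjsplit, Multiset.count_add]
        omega
      have h4 : Multiset.count x M.join ≤ Multiset.count x (A + Bw) :=
        Multiset.le_iff_count.mp hjoin x
      rw [Multiset.count_add, hxA] at h4
      omega
    · have : Multiset.count x MB.join = 0 := by
        rw [Multiset.count_eq_zero]
        intro hx'
        exact hx (hMBmem x hx')
      omega
  have hMBb : MB.card ≤ b := by
    by_contra hcon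
    exact hB ⟨MB, by omega, hMBtri, hMBle⟩
  have hMBjc : MB.join.card = 3 * MB.card :=
    card_join_triples MB (fun t ht => (hMBtri t ht).1)
  -- Claim 2: replace lower-world items by jokers in the triples of `MA`
  set φ : ℕ → ℕ := fun x => if x ∈ Bw then j else x with hφ
  have hφB : ∀ x, x ∈ Bw → φ x = j := fun x hx => by simp [hφ, hx]
  have hφA : ∀ x, x ∉ Bw → φ x = x := fun x hx => by simp [hφ, hx]
  have hMA' : ∀ t ∈ MA.map (Multiset.map φ), t.card = 3 ∧ t.sum ≤ L := by
    intro t' ht'
    obtain ⟨t, ht, rfl⟩ := Multiset.mem_map.mp ht'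
    obtain ⟨htc, hts⟩ := hMAtri t ht
    have htM : t ∈ M := Multiset.mem_of_mem_filter ht
    have hnp : ¬ p t := (Multiset.mem_filter.mp ht).2
    refine ⟨by rw [Multiset.card_map]; exact htc, ?_⟩
    obtain ⟨x, y, z, rfl⟩ := Multiset.card_eq_three.mp htc
    have hxM : x ∈ A ∨ x ∈ Bw := hmemAB x (mem_join_of_mem htM (by simp))
    have hyM : y ∈ A ∨ y ∈ Bw := hmemAB y (mem_join_of_mem htM (by simp))
    have hzM : z ∈ A ∨ z ∈ Bw := hmemAB z (mem_join_of_mem htM (by simp))
    have hsum : x + y + z ≤ L := by
      have : ({x, y, z} : Multiset ℕ).sum = x + y + z := by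
        simp [Multiset.insert_eq_cons, add_assoc]
      rw [this] at hts
      exact hts
    have hmsum : (Multiset.map φ ({x, y, z} : Multiset ℕ)).sum = φ x + φ y + φ z := by
      simp [Multiset.insert_eq_cons, add_assoc]
    rw [hmsum]
    by_cases hx : x ∈ Bw <;> by_cases hy : y ∈ Bw <;> by_cases hz' : z ∈ Bw
    · exfalso
      apply hnp
      intro w hw
      simp only [Multiset.insert_eq_cons, Multiset.mem_cons, Multiset.mem_singleton] at hw
      rcases hw with rfl | rfl | rfl <;> assumption
    · have hzA : z ∈ A := hzM.resolve_right hz'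
      rw [hφB x hx, hφB y hy, hφA z hz']
      have hx1 := hz x hx
      have hy1 := hz y hy
      have := h2 z hzA (by omega)
      omega
    · have hyA : y ∈ A := hyM.resolve_right hy
      rw [hφB x hx, hφA y hy, hφB z hz']
      have hx1 := hz x hx
      have hz1 := hz z hz'
      have := h2 y hyA (by omega)
      omega
    · have hyA : y ∈ A := hyM.resolve_right hy
      have hzA : z ∈ A := hzM.resolve_right hz'
      rw [hφB x hx, hφA y hy, hφA z hz']
      have hx1 := hz x hx
      have := h1 y hyA z hzA (by omega)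
      omega
    · have hxA : x ∈ A := hxM.resolve_right hx
      rw [hφA x hx, hφB y hy, hφB z hz']
      have hy1 := hz y hy
      have hz1 := hz z hz'
      have := h2 x hxA (by omega)
      omega
    · have hxA : x ∈ A := hxM.resolve_right hx
      have hzA : z ∈ A := hzM.resolve_right hz'
      rw [hφA x hx, hφB y hy, hφA z hz']
      have hy1 := hz y hy
      have := h1 x hxA z hzA (by omega)
      omega
    · have hxA : x ∈ A := hxM.resolve_right hx
      have hyA : y ∈ A := hyM.resolve_right hy
      rw [hφA x hx, hφA y hy, hφB z hz']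
      have hz1 := hz z hz'
      have := h1 x hxA y hyA (by omega)
      omega
    · rw [hφA x hx, hφA y hy, hφA z hz']
      exact hsum
  -- Claim 3: the new triples live in `A` plus few jokers
  set J := MA.join with hJ
  have hJle : MB.join + J ≤ A + Bw := by
    rw [← hjsplit]
    exact hjoin
  have hJA : J.filter (fun x => ¬ x ∈ Bw) ≤ A := by
    have h3 : J ≤ A + Bw := le_trans (Multiset.le_add_left _ _) hJle
    have h4 := Multiset.filter_le_filter (fun x => ¬ x ∈ Bw) h3
    rw [Multiset.filter_add] at h4
    have h5 : A.filter (fun x => ¬ x ∈ Bw) = A :=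
      Multiset.filter_eq_self.mpr (fun x hx => hdisj x hx)
    have h6 : Bw.filter (fun x => ¬ x ∈ Bw) = 0 :=
      Multiset.filter_eq_nil.mpr (fun x hx hn => hn hx)
    rw [h5, h6, add_zero] at h4
    exact h4
  have hJB : (J.filter (fun x => x ∈ Bw)).card + 3 * MB.card ≤ Bw.card := by
    have h4 := Multiset.filter_le_filter (fun x => x ∈ Bw) hJle
    rw [Multiset.filter_add, Multiset.filter_add] at h4
    have h5 : A.filter (fun x => x ∈ Bw) = 0 :=
      Multiset.filter_eq_nil.mpr (fun x hx hn => hdisj x hx hn)
    have h6 : Bw.filter (fun x => x ∈ Bw) = Bw :=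
      Multiset.filter_eq_self.mpr (fun x hx => hx)
    have h7 : MB.join.filter (fun x => x ∈ Bw) = MB.join :=
      Multiset.filter_eq_self.mpr hMBmem
    rw [h5, h6, h7, zero_add] at h4
    have h8 := Multiset.card_le_card h4
    rw [Multiset.card_add, hMBjc] at h8
    omega
  have hmapJ : (MA.map (Multiset.map φ)).join =
      Multiset.replicate (J.filter (fun x => x ∈ Bw)).card j + J.filter (fun x => ¬ x ∈ Bw) := by
    rw [← Multiset.map_join]
    conv_lhs => rw [← Multiset.filter_add_not (fun x => x ∈ Bw) MA.join]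
    rw [Multiset.map_add]
    congr 1
    · rw [Multiset.map_congr rfl (fun x hx => hφB x (Multiset.mem_filter.mp hx).2)]
      exact Multiset.map_const' _ _
    · rw [Multiset.map_congr rfl (fun x hx => hφA x (Multiset.mem_filter.mp hx).2)]
      exact Multiset.map_id' _
  have hTM : ∀ k, (J.filter (fun x => x ∈ Bw)).card ≤ k →
      TripleMatch L (A + Multiset.replicate k j) MA.card := by
    intro k hk
    refine ⟨MA.map (Multiset.map φ), by rw [Multiset.card_map], hMA', ?_⟩
    rw [hmapJ, add_comm]
    exact add_le_add hJA ((Multiset.replicate_le_replicate j).mpr hk)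
  by_cases hbb : MB.card = b
  · apply hA2
    exact tripleMatch_mono (hTM (Multiset.card Bw - 3 * b) (by omega)) le_rfl (by omega)
  · apply hA1
    exact tripleMatch_mono (hTM (Multiset.card Bw) (by omega)) le_rfl (by omega)

end Vale.Agent.Lib.P302.helper90

namespace Vale.Agent.Lib.P302.helper90

open Vale.Agent.Lib.P302.helper49

theorem items_append (l1 l2 : List (ℕ × ℕ)) : items (l1 ++ l2) = items l1 + items l2 := by
  induction l1 with
  | nil => simp
  | cons t l ih => rw [List.cons_append, items_cons, items_cons, ih, add_assoc]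

/-- Kernel-evaluable check that the items of `ts` (types in strictly decreasing order of length)
do not contain `T` pairwise disjoint fitting triples. -/
def checkT (L : ℕ) (ws : List (List ℕ × ℕ)) (ts : List (ℕ × ℕ)) (fuel T : ℕ) : Bool :=
  sortedDesc ts && ws.all (fun wd => validC3 L ts wd) && refuteP L ws fuel ts T

theorem not_tripleMatch_of_checkT {L : ℕ} {ws : List (List ℕ × ℕ)} {ts : List (ℕ × ℕ)}
    {fuel T : ℕ} (h : checkT L ws ts fuel T = true) : ¬ TripleMatch L (items ts) T := by
  simp only [checkT, Bool.and_eq_true, List.all_eq_true] at h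
  obtain ⟨⟨hsd, hws⟩, href⟩ := h
  have hsd' := sortedDesc_spec ts hsd
  have hnd : (ts.map Prod.fst).Nodup := by
    apply List.Pairwise.imp _ hsd'
    intro a b hab
    omega
  exact refuteP_sound hsd' (fun wd hwd => validC3_sound hnd (hws wd hwd)) fuel ts _ rfl le_rfl href

/-- The level-splitting theorem for instances given by lists of types: the types `tsB` of the
lower world sit between the long items `tsG` and the short items `tsN` of the top level. -/
theorem not_tripleMatch_split_ts {L j zmin : ℕ} {tsG tsB tsN : List (ℕ × ℕ)} {T b nB u : ℕ}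
    (hn : total tsB = nB) (hu : u + 3 * b = nB) (hbT : b ≤ T)
    (hdisj : ∀ x ∈ (tsG ++ tsN).map Prod.fst, x ∉ tsB.map Prod.fst)
    (hz : ∀ z ∈ tsB.map Prod.fst, zmin ≤ z)
    (h1 : ∀ a1 ∈ (tsG ++ tsN).map Prod.fst, ∀ a2 ∈ (tsG ++ tsN).map Prod.fst,
      a1 + a2 + zmin ≤ L → a1 + a2 + j ≤ L)
    (h2 : ∀ a ∈ (tsG ++ tsN).map Prod.fst, a + 2 * zmin ≤ L → a + 2 * j ≤ L)
    (hB : ¬ TripleMatch L (items tsB) (b + 1))
    (hA1 : ¬ TripleMatch L (items (tsG ++ (j, nB) :: tsN)) (T - b + 1))
    (hA2 : ¬ TripleMatch L (items (tsG ++ (j, u) :: tsN)) (T - b)) :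
    ¬ TripleMatch L (items (tsG ++ tsB ++ tsN)) T := by
  have e1 : items (tsG ++ tsB ++ tsN) = (items tsG + items tsN) + items tsB := by
    rw [items_append, items_append]
    abel
  have e2 : ∀ k, items (tsG ++ (j, k) :: tsN) =
      (items tsG + items tsN) + Multiset.replicate k j := by
    intro k
    rw [items_append, items_cons]
    abel
  rw [e1]
  have hmem : ∀ x ∈ items tsG + items tsN, x ∈ (tsG ++ tsN).map Prod.fst := by
    intro x hx
    rw [← items_append] at hx
    exact mem_items hx
  have hcardB : Multiset.card (items tsB) = nB := by rw [← total_eq_card, hn]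
  have hu' : nB - 3 * b = u := by omega
  apply not_tripleMatch_split (j := j) (zmin := zmin) (b := b)
  · intro x hx hxB
    exact hdisj x (hmem x hx) (mem_items hxB)
  · intro z hz'
    exact hz z (mem_items hz')
  · intro a1 ha1 a2 ha2
    exact h1 a1 (hmem a1 ha1) a2 (hmem a2 ha2)
  · intro a ha
    exact h2 a (hmem a ha)
  · exact hbT
  · exact hB
  · rw [hcardB, ← e2]
    exact hA1
  · rw [hcardB, hu', ← e2]
    exact hA2

/-- If all items are longer than a quarter of the capacity and there are no
`(number of items) - 2 K` disjoint fitting triples, the items cannot be packed into `K` bins. -/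
theorem not_packable_of_not_tripleMatch {L : ℕ} {ts : List (ℕ × ℕ)} {K : ℕ}
    (hbig : ts.all (fun t => Nat.blt L (4 * t.1)) = true)
    (h : ¬ TripleMatch L (items ts) (total ts - 2 * K)) : ¬ Packable L (items ts) K := by
  intro hp
  have hbig' : ∀ x ∈ items ts, L < 4 * x := by
    intro x hx
    obtain ⟨t, ht, rfl⟩ := List.mem_map.mp (mem_items hx)
    have := List.all_eq_true.mp hbig t ht
    exact Nat.blt_eq.mp this
  have htm := tripleMatch_of_packable hbig' hp
  rw [← total_eq_card] at htm
  exact h htm

end Vale.Agent.Lib.P302.helper90
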